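import Mathlib
import Vale.Agent.H68.P036.Final

namespace Vale.Agent.Results.P036.A_ShortPathsAndMonotoneChains

open Vale.Agent.H68.P036 Finset

/-- **Heilbronn-type bounds on two classes of planar configurations.**
Here `triArea a b c` is the area of the triangle `abc`, `eDist` is the Euclidean distance and
`MonoSet Q` says that `Q` is an increasing or a decreasing chain.

* Path form: if `p 0, …, p (n-1)` are `n ≥ 3` distinct points of a finite set `P` of the plane,
  listed in any order, then `P` contains three distinct points spanning a triangle of area at most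
  `l ^ 2 / (2 (n - 2) ^ 2)`, where `l` is the Euclidean length of the polygonal path through the
  listed points.
* Monotone covers: if `P` is a set of `n` points of the unit square that is the union of `m ≥ 1`
  monotone subsets, and `n ≥ 3 m`, then `P` contains three distinct points spanning a triangle of
  area at most `2 m ^ 2 / (n - 2 m) ^ 2`. -/
theorem result :
    (∀ (P : Finset (ℝ × ℝ)) (n : ℕ) (p : ℕ → ℝ × ℝ), 3 ≤ n → (∀ i < n, p i ∈ P) →
      (∀ i < n, ∀ j < n, p i = p j → i = j) →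
      ∃ a ∈ P, ∃ b ∈ P, ∃ c ∈ P, a ≠ b ∧ b ≠ c ∧ a ≠ c ∧
        triArea a b c
          ≤ (∑ j ∈ range (n - 1), eDist (p j) (p (j + 1))) ^ 2 / (2 * ((n : ℝ) - 2) ^ 2)) ∧
    (∀ (P : Finset (ℝ × ℝ)) (n m : ℕ) (Q : Fin m → Finset (ℝ × ℝ)), P.card = n → 0 < m →
      3 * m ≤ n → (∀ q ∈ P, 0 ≤ q.1 ∧ q.1 ≤ 1 ∧ 0 ≤ q.2 ∧ q.2 ≤ 1) →
      (∀ t, Q t ⊆ P) → (∀ q ∈ P, ∃ t, q ∈ Q t) → (∀ t, MonoSet (Q t)) →
      ∃ a ∈ P, ∃ b ∈ P, ∃ c ∈ P, a ≠ b ∧ b ≠ c ∧ a ≠ c ∧
        triArea a b c ≤ 2 * (m : ℝ) ^ 2 / ((n : ℝ) - 2 * (m : ℝ)) ^ 2) :=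
  final_statement

end Vale.Agent.Results.P036.A_ShortPathsAndMonotoneChains
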