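import Mathlib
import Vale.Agent.H51.Heil.Final

namespace Vale.Agent.Results.P036.B_ConvexPosition

open Vale.Agent.H51.Heil

/-- **Heilbronn-type bounds for point sets in convex position.**
Here `triArea a b c` is the area of the triangle `abc`, and a finite set is in convex position
when none of its points lies in the convex hull of the others.  For every `n ≥ 3`:

* every set `P` of `n` points of the unit square in convex position contains three distinct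
  points spanning a triangle of area at most `2048 / n ^ 3`;
* some set `P` of `n` points of the unit square in convex position has all its triangles of area
  at least `1 / n ^ 3`;
* if a set `P` of `n` points of the unit square is the union of `m ≥ 1` subsets, each in convex
  position, and `n ≥ 3 m`, then `P` contains three distinct points spanning a triangle of area
  at most `2048 m ^ 3 / n ^ 3`. -/
theorem result (n : ℕ) (hn : 3 ≤ n) :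
    (∀ P : Finset (ℝ × ℝ), P.card = n →
      (∀ p ∈ P, 0 ≤ p.1 ∧ p.1 ≤ 1 ∧ 0 ≤ p.2 ∧ p.2 ≤ 1) →
      (∀ p ∈ P, p ∉ convexHull ℝ (↑(P.erase p) : Set (ℝ × ℝ))) →
      ∃ a ∈ P, ∃ b ∈ P, ∃ c ∈ P, a ≠ b ∧ a ≠ c ∧ b ≠ c ∧
        triArea a b c ≤ 2048 / (n : ℝ) ^ 3) ∧
    (∃ P : Finset (ℝ × ℝ), P.card = n ∧
      (∀ p ∈ P, 0 ≤ p.1 ∧ p.1 ≤ 1 ∧ 0 ≤ p.2 ∧ p.2 ≤ 1) ∧
      (∀ p ∈ P, p ∉ convexHull ℝ (↑(P.erase p) : Set (ℝ × ℝ))) ∧
      ∀ a ∈ P, ∀ b ∈ P, ∀ c ∈ P, a ≠ b → a ≠ c → b ≠ c →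
        1 / (n : ℝ) ^ 3 ≤ triArea a b c) ∧
    (∀ (P : Finset (ℝ × ℝ)) (m : ℕ) (Q : Fin m → Finset (ℝ × ℝ)), P.card = n → 0 < m →
      3 * m ≤ n → (∀ p ∈ P, 0 ≤ p.1 ∧ p.1 ≤ 1 ∧ 0 ≤ p.2 ∧ p.2 ≤ 1) →
      (∀ t, Q t ⊆ P) → (∀ p ∈ P, ∃ t, p ∈ Q t) →
      (∀ t, ∀ p ∈ Q t, p ∉ convexHull ℝ (↑((Q t).erase p) : Set (ℝ × ℝ))) →
      ∃ a ∈ P, ∃ b ∈ P, ∃ c ∈ P, a ≠ b ∧ a ≠ c ∧ b ≠ c ∧
        triArea a b c ≤ 2048 * (m : ℝ) ^ 3 / (n : ℝ) ^ 3) :=
  Vale.Agent.H51.Heil.final_statement n hn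

end Vale.Agent.Results.P036.B_ConvexPosition
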