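import Mathlib
import Vale.Agent.H51.Heil.Combined

namespace Vale.Agent.Results.P036.C_AllClasses

open Vale.Agent.H68.P036 Finset

/-- **Heilbronn-type bounds on four classes of planar configurations, in one statement.**
Here `triArea a b c` is the area of the triangle `abc`, `eDist` is the Euclidean distance,
`MonoSet Q` says that `Q` is an increasing or a decreasing chain, and a finite set is in convex
position when none of its points lies in the convex hull of the others.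

* Path form: `n ≥ 3` distinct points of a finite set `P`, listed along a polygonal path of
  Euclidean length `l`, give a triangle of area at most `l ^ 2 / (2 (n - 2) ^ 2)`.
* Monotone covers: `n ≥ 3 m` points of the unit square covered by `m` monotone subsets give a
  triangle of area at most `2 m ^ 2 / (n - 2 m) ^ 2`.
* Convex position, for every `n ≥ 3`: `n` points of the unit square in convex position give a
  triangle of area at most `2048 / n ^ 3`; some such set has all triangles of area at least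
  `1 / n ^ 3`; and `n ≥ 3 m` points of the unit square covered by `m` subsets in convex position
  give a triangle of area at most `2048 m ^ 3 / n ^ 3`. -/
theorem result :
    (∀ (P : Finset (ℝ × ℝ)) (n : ℕ) (p : ℕ → ℝ × ℝ), 3 ≤ n → (∀ i < n, p i ∈ P) →
      (∀ i < n, ∀ j < n, p i = p j → i = j) →
      ∃ a ∈ P, ∃ b ∈ P, ∃ c ∈ P, a ≠ b ∧ b ≠ c ∧ a ≠ c ∧
        triArea a b c
          ≤ (∑ j ∈ range (n - 1), eDist (p j) (p (j + 1))) ^ 2 / (2 * ((n : ℝ) - 2) ^ 2)) ∧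
    (∀ (P : Finset (ℝ × ℝ)) (n m : ℕ) (Q : Fin m → Finset (ℝ × ℝ)), P.card = n → 0 < m →
      3 * m ≤ n → (∀ q ∈ P, 0 ≤ q.1 ∧ q.1 ≤ 1 ∧ 0 ≤ q.2 ∧ q.2 ≤ 1) →
      (∀ t, Q t ⊆ P) → (∀ q ∈ P, ∃ t, q ∈ Q t) → (∀ t, MonoSet (Q t)) →
      ∃ a ∈ P, ∃ b ∈ P, ∃ c ∈ P, a ≠ b ∧ b ≠ c ∧ a ≠ c ∧
        triArea a b c ≤ 2 * (m : ℝ) ^ 2 / ((n : ℝ) - 2 * (m : ℝ)) ^ 2) ∧
    (∀ n : ℕ, 3 ≤ n →
      (∀ P : Finset (ℝ × ℝ), P.card = n →
        (∀ q ∈ P, 0 ≤ q.1 ∧ q.1 ≤ 1 ∧ 0 ≤ q.2 ∧ q.2 ≤ 1) →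
        (∀ q ∈ P, q ∉ convexHull ℝ (↑(P.erase q) : Set (ℝ × ℝ))) →
        ∃ a ∈ P, ∃ b ∈ P, ∃ c ∈ P, a ≠ b ∧ b ≠ c ∧ a ≠ c ∧
          triArea a b c ≤ 2048 / (n : ℝ) ^ 3) ∧
      (∃ P : Finset (ℝ × ℝ), P.card = n ∧
        (∀ q ∈ P, 0 ≤ q.1 ∧ q.1 ≤ 1 ∧ 0 ≤ q.2 ∧ q.2 ≤ 1) ∧
        (∀ q ∈ P, q ∉ convexHull ℝ (↑(P.erase q) : Set (ℝ × ℝ))) ∧
        ∀ a ∈ P, ∀ b ∈ P, ∀ c ∈ P, a ≠ b → b ≠ c → a ≠ c →
          1 / (n : ℝ) ^ 3 ≤ triArea a b c) ∧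
      (∀ (P : Finset (ℝ × ℝ)) (m : ℕ) (Q : Fin m → Finset (ℝ × ℝ)), P.card = n → 0 < m →
        3 * m ≤ n → (∀ q ∈ P, 0 ≤ q.1 ∧ q.1 ≤ 1 ∧ 0 ≤ q.2 ∧ q.2 ≤ 1) →
        (∀ t, Q t ⊆ P) → (∀ q ∈ P, ∃ t, q ∈ Q t) →
        (∀ t, ∀ q ∈ Q t, q ∉ convexHull ℝ (↑((Q t).erase q) : Set (ℝ × ℝ))) →
        ∃ a ∈ P, ∃ b ∈ P, ∃ c ∈ P, a ≠ b ∧ b ≠ c ∧ a ≠ c ∧
          triArea a b c ≤ 2048 * (m : ℝ) ^ 3 / (n : ℝ) ^ 3)) :=
  Vale.Agent.H51.Heil.combined_statement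

end Vale.Agent.Results.P036.C_AllClasses
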